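import Vale.Agent.P273SW.Defs

/-!
# P273S, block W: general lemmas on `IsExt`, density of the generic data, coordinates of a position
-/

noncomputable section

namespace Vale.Agent.P273SG

open Set Filter Topology Vale.Agent.P273 H95 Vale.Agent.P273SW
open Vale.Agent.P273.H681 (C6)
open Vale.Agent.P273.H888 (Real Dist Far ept)
open scoped ContDiff ComplexConjugate

section ext

variable {M M' : Type} [NormedAddCommGroup M] [NormedSpace ℝ M] [NormedAddCommGroup M']
  [NormedSpace ℝ M'] {S : L → Bool} {ψ ψ' : M → E} {σ σ' : M → L → ℂ} {O O' : Set M}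
  {f f' : M → Amb}

theorem dense_congr (hO : IsOpen O) {P Q : M → Prop} (h : O ⊆ closure {p | P p})
    (hPQ : ∀ p ∈ O, P p → Q p) : O ⊆ closure {p | Q p} := fun p hp =>
  closure_mono (fun q (hq : q ∈ O ∩ {p | P p}) => hPQ q hq.1 hq.2) (hO.inter_closure ⟨hp, h hp⟩)

/-- Restriction to a smaller open set, with the data changed outside. -/
theorem isExt_congr (h : IsExt S ψ σ O f) (hO : IsOpen O') (hs : O' ⊆ O)
    (hψ : ∀ p ∈ O', ψ' p = ψ p) (hσ : ∀ p ∈ O', σ' p = σ p) (hf : ∀ p ∈ O', f' p = f p) :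
    IsExt S ψ' σ' O' f' where
  opn := hO
  sm := (h.sm.mono hs).congr hf
  fst p hp := by rw [hf p hp, hψ p hp]; exact h.fst p (hs hp)
  pos p hp j := by rw [hf p hp, hψ p hp, hσ p hp]; exact h.pos p (hs hp) j
  eq p hp hd := by
    rw [hψ p hp, hσ p hp] at hd ⊢
    rw [hf p hp]
    exact h.eq p (hs hp) hd
  dense := dense_congr hO (hs.trans h.dense) fun p hp hg => by
    rw [hψ p hp, hσ p hp]; exact hg

theorem isExt_mono (h : IsExt S ψ σ O f) (hO : IsOpen O') (hs : O' ⊆ O) : IsExt S ψ σ O' f :=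
  isExt_congr h hO hs (fun _ _ => rfl) (fun _ _ => rfl) fun _ _ => rfl

/-- Pull-back along a smooth homeomorphism. -/
theorem isExt_homeo (h : IsExt S ψ σ O f) (k : M' ≃ₜ M) (hk : ContDiff ℝ ∞ k) :
    IsExt S (fun q => ψ (k q)) (fun q => σ (k q)) (k ⁻¹' O) (fun q => f (k q)) where
  opn := h.opn.preimage k.continuous
  sm := h.sm.comp hk.contDiffOn fun _ hq => hq
  fst _ hq := h.fst _ hq
  pos _ hq j := h.pos _ hq j
  eq _ hq hd := h.eq _ hq hd
  dense := fun q hq => by
    have h1 : q ∈ k ⁻¹' closure {p | Gn S (ψ p) (σ p)} := h.dense hq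
    rw [k.preimage_closure] at h1
    exact h1

theorem xx_same {s s' : Bool} {z v z' v' : ℂ} (h : Same s z v s' z' v') : xx s z = xx s' z' := by
  unfold Same at h
  unfold xx
  cases s <;> cases s' <;> simp only [if_true, if_false, Bool.false_eq_true, reduceCtorEq] at h ⊢
  · exact h.1
  · exact eq_inv_of_mul_eq_one_left h.1
  · exact (eq_inv_of_mul_eq_one_right h.1).symm
  · rw [h.1]

theorem Gn.dist {e : E} {v : L → ℂ} (h : Gn S e v) : Dist S e v :=
  ⟨h.2.1, fun i j hij hs => h.2.2.2 i j hij (xx_same hs)⟩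

/-- The values of an extension are limits of generic points. -/
theorem isExt_closure (h : IsExt S ψ σ O f) {p : M} (hp : p ∈ O) : f p ∈ closure StdW := by
  have h1 : p ∈ closure (O ∩ {p | Gn S (ψ p) (σ p)}) := h.opn.inter_closure ⟨hp, h.dense hp⟩
  have h2 : ContinuousAt f p := h.sm.continuousOn.continuousAt (h.opn.mem_nhds hp)
  refine closure_mono ?_ (mem_closure_image h2 h1)
  rintro _ ⟨q, hq, rfl⟩
  exact ⟨S, ψ q, σ q, hq.2, h.eq q hq.1 (Gn.dist hq.2)⟩

end ext

/-! ### Density of the generic data -/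

theorem finite_sx1 (a : C6) : {x | sx1 a x = 0}.Finite := by
  obtain ⟨P, hP⟩ : ∃ P : Polynomial ℂ, P = Polynomial.C 6 * Polynomial.X ^ 5 +
      Polynomial.C (5 * a 5) * Polynomial.X ^ 4 + Polynomial.C (4 * a 4) * Polynomial.X ^ 3 +
      Polynomial.C (3 * a 3) * Polynomial.X ^ 2 + Polynomial.C (2 * a 2) * Polynomial.X +
      Polynomial.C (a 1) := ⟨_, rfl⟩
  have h5 : P.natDegree = 5 := by
    rw [hP]
    compute_degree!
  have hP0 : P ≠ 0 := by
    intro h
    rw [h] at h5
    simp at h5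
  refine (Polynomial.finite_setOfPred_isRoot hP0).subset fun x hx => ?_
  have hx' : sx1 a x = 0 := hx
  change Polynomial.eval x P = 0
  rw [hP, ← hx']
  simp only [Polynomial.eval_add, Polynomial.eval_mul, Polynomial.eval_pow, Polynomial.eval_C,
    Polynomial.eval_X, sx1, Fin.sum_univ_six]
  norm_num [Fin.val_zero, Fin.val_one]
  ring

theorem sx_shift (a : C6) (t x : ℂ) : sx (a + Pi.single 0 t) x = sx a x + t := by
  simp only [sx, Fin.sum_univ_six, Pi.add_apply]
  simp
  ring

theorem sx1_shift (a : C6) (t x : ℂ) : sx1 (a + Pi.single 0 t) x = sx1 a x := by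
  simp only [sx1, Fin.sum_univ_six, Pi.add_apply]
  simp

theorem ev_simple (a : C6) : ∀ᶠ t in 𝓝[≠] (0 : ℂ),
    ∀ x, sx (a + Pi.single 0 t) x = 0 → sx1 (a + Pi.single 0 t) x ≠ 0 := by
  have hf := (finite_sx1 a).image fun x => -sx a x
  filter_upwards [nhdsNE_le_cofinite (0 : ℂ) hf.compl_mem_cofinite] with t ht x h0 h1
  rw [sx_shift] at h0
  rw [sx1_shift] at h1
  exact ht ⟨x, h1, by linear_combination -h0⟩

theorem ev_xx (S : L → Bool) (z : L → ℂ) : ∀ᶠ t in 𝓝[≠] (0 : ℂ), (∀ j, H894.mv z t j ≠ 0) ∧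
    ∀ i j, i ≠ j → xx (S i) (H894.mv z t i) ≠ xx (S j) (H894.mv z t j) := by
  have h0 : ∀ᶠ t in 𝓝[≠] (0 : ℂ), ∀ j, H894.mv z t j ≠ 0 :=
    eventually_all.2 fun j => H894.ev_lin (z j) _ (H894.dir_ne j)
  have h1 : ∀ i j : L, ∀ᶠ t in 𝓝[≠] (0 : ℂ), i ≠ j →
      xx (S i) (H894.mv z t i) ≠ xx (S j) (H894.mv z t j) := by
    intro i j
    by_cases hij : i = j
    · exact Eventually.of_forall fun t h => absurd hij h
    · filter_upwards [H894.ev_lin (z i - z j) _ (H894.dir_sub_ne hij),
        H894.ev_quad (z i) (z j) _ _ (H894.dir_ne i) (H894.dir_ne j), h0] with t h1 h2 h3 _ h4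
      have h5 : H894.mv z t i ≠ H894.mv z t j := fun h => h1 (by
        unfold H894.mv at h; linear_combination h)
      have h6 : H894.mv z t i * H894.mv z t j ≠ 1 := h2
      unfold xx at h4
      split_ifs at h4
      · exact h5 (inv_injective h4)
      · exact h6 (by rw [← h4, mul_inv_cancel₀ (h3 i)])
      · exact h6 (by rw [h4, inv_mul_cancel₀ (h3 j)])
      · exact h5 h4
  exact h0.and (eventually_all.2 fun i => eventually_all.2 fun j => h1 i j)

/-- Simple roots, finite marks with distinct `x`: dense. -/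
theorem dense_gen (S : L → Bool) (p : E) : p ∈ closure {q : E |
    (∀ x, sx q.1 x = 0 → sx1 q.1 x ≠ 0) ∧ (∀ j, q.2 j ≠ 0) ∧
      ∀ i j, i ≠ j → xx (S i) (q.2 i) ≠ xx (S j) (q.2 j)} := by
  have hc : Continuous fun t : ℂ => ((p.1 + Pi.single 0 t, H894.mv p.2 t) : E) := by
    have h1 : Continuous fun t : ℂ => (Pi.single 0 t : C6) :=
      continuous_single (A := fun _ : Fin 6 => ℂ) 0
    refine (continuous_const.add h1).prodMk (continuous_pi fun j => ?_)
    exact continuous_const.add (continuous_id.mul continuous_const)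
  have h0 : ((p.1 + Pi.single 0 (0 : ℂ), H894.mv p.2 0) : E) = p := by
    refine Prod.ext (by simp) (funext fun j => ?_)
    simp [H894.mv]
  have hγ : Tendsto (fun t : ℂ => ((p.1 + Pi.single 0 t, H894.mv p.2 t) : E)) (𝓝[≠] 0) (𝓝 p) := by
    have := hc.tendsto 0
    rw [h0] at this
    exact this.mono_left nhdsWithin_le_nhds
  refine mem_closure_of_tendsto hγ ?_
  filter_upwards [ev_simple p.1, ev_xx S p.2] with t h1 h2
  exact ⟨h1, h2.1, h2.2⟩

/-! ### Coordinates of a position -/

/-- The denominator of the chart `s`. -/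
def dn (s : Bool) (P : C4) : ℂ := if s then 1 - P.1 else P.1
/-- The first coordinate in the chart `s`. -/
def zc (s : Bool) (P : C4) : ℂ := if s then P.2.1 / dn s P else conj (P.2.1 / dn s P)
/-- The second coordinate in the chart `s`. -/
def vc (s : Bool) (P : C4) : ℂ := (if s then P.2.2.2 else P.2.2.1) / dn s P ^ 3

theorem dn_pt4 (s : Bool) (z v : ℂ) : dn s (pt4 s z v) ≠ 0 := by
  cases s
  · exact H183.emb_ne (m := 0) (0, z, v)
  · exact sub_ne_zero.2 (H183.emb'_ne (m := 0) (0, z, v)).symm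

theorem zc_pt4 (s : Bool) (z v : ℂ) : zc s (pt4 s z v) = z := by
  cases s
  · exact congrArg (fun p => p.2.1) (H183.crd_emb (m := 0) (0, z, v))
  · exact congrArg (fun p => p.2.1) (H183.crd'_emb' (m := 0) (0, z, v))

theorem vc_pt4 (s : Bool) (z v : ℂ) : vc s (pt4 s z v) = v := by
  cases s
  · exact congrArg (fun p => p.2.2) (H183.crd_emb (m := 0) (0, z, v))
  · exact congrArg (fun p => p.2.2) (H183.crd'_emb' (m := 0) (0, z, v))

theorem continuous_dn (s : Bool) : Continuous (dn s) := by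
  unfold dn
  cases s <;> simp only [if_true, if_false, Bool.false_eq_true] <;> fun_prop

theorem continuousAt_zc {s : Bool} {P : C4} (h : dn s P ≠ 0) : ContinuousAt (zc s) P := by
  have h1 : ContinuousAt (fun P : C4 => P.2.1 / dn s P) P :=
    ContinuousAt.div (by fun_prop) (continuous_dn s).continuousAt h
  unfold zc
  cases s <;> simp only [if_true, if_false, Bool.false_eq_true]
  · exact Complex.continuous_conj.continuousAt.comp h1
  · exact h1

theorem continuousAt_vc {s : Bool} {P : C4} (h : dn s P ≠ 0) : ContinuousAt (vc s) P := by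
  unfold vc
  refine ContinuousAt.div ?_ ((continuous_dn s).continuousAt.pow 3) (pow_ne_zero 3 h)
  cases s <;> simp only [if_true, if_false, Bool.false_eq_true] <;> fun_prop

theorem pt4_eq_iff {s s' : Bool} {z v z' v' : ℂ} :
    pt4 s z v = pt4 s' z' v' ↔ Same s z v s' z' v' := by
  have h := H888.ept_eq_iff (m := 0) (s := s) (s' := s') (b := 0) (b' := 0) (z := z) (v := v)
    (z' := z') (v' := v')
  constructor
  · intro e
    exact (h.1 (Prod.ext (Subsingleton.elim _ _) e)).2
  · intro e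
    exact congrArg Prod.snd (h.2 ⟨rfl, e⟩)

end Vale.Agent.P273SG

end
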