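import Vale.Agent.P273SG.Th
import Vale.Agent.P273SG.Gen

/-!
# P273S, block W: the row P1 (regions with one neck)
-/

noncomputable section

namespace Vale.Agent.P273SG

open Set Filter Topology Vale.Agent.P273 H95 Vale.Agent.P273SW
open Vale.Agent.P273.H883 (nf gb vb sg1)
open scoped ContDiff

/-! ### Generic points -/

theorem xx_ne {s s' : Bool} {z z' : ℂ} (h1 : s = s' → z ≠ z') (h2 : s ≠ s' → z * z' ≠ 1)
    (hz : z ≠ 0) (hz' : z' ≠ 0) : xx s z ≠ xx s' z' := by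
  intro h
  unfold xx at h
  cases s <;> cases s' <;> simp only [if_true, if_false, Bool.false_eq_true] at h
  · exact h1 rfl h
  · exact h2 (by decide) (by rw [h, inv_mul_cancel₀ hz'])
  · exact h2 (by decide) (by rw [← h, mul_inv_cancel₀ hz])
  · exact h1 rfl (inv_injective h)

variable {R : Region1} {S : L → Bool}

/-- Two more generic conditions. -/
def cnd (R : Region1) : L ⊕ L × L → R.Sp → ℂ
  | Sum.inl j, p => R.pos p j
  | Sum.inr x, p => R.XX p (R.rk x.1) - R.YY p (R.rk x.2)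

theorem exists_cnd (c : L ⊕ L × L) : ∃ p, cnd R c p ≠ 0 := by
  rcases c with j | x
  · cases hj : R.nk j
    · refine ⟨(0, fun _ => 1), ?_⟩
      change R.pos _ j ≠ 0
      rw [H883.pos_core hj]
      exact one_ne_zero
    · refine ⟨(0, fun _ => 1 - (R.XX (0, 0) (R.rk j) + R.YY (0, 0) (R.rk j)) / 2), ?_⟩
      change R.pos _ j ≠ 0
      rw [H883.pos_neck hj]
      change 1 - (R.XX (0, 0) (R.rk j) + R.YY (0, 0) (R.rk j)) / 2 +
        (R.XX (0, 0) (R.rk j) + R.YY (0, 0) (R.rk j)) / 2 ≠ 0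
      rw [sub_add_cancel]
      exact one_ne_zero
  · refine ⟨(fun g => if g = 0 then 2 else 1, 0), ?_⟩
    have h1 : R.XX (fun g => if g = 0 then 2 else 1, 0) (R.rk x.1) = 2 := by
      unfold Region1.XX
      rw [Finset.prod_eq_single (0 : Fin (R.n + 1))]
      · simp
      · intro g _ hg
        simp [hg]
      · simp
    have h2 : R.YY (fun g => if g = 0 then 2 else 1, 0) (R.rk x.2) = 1 := by
      unfold Region1.YY
      refine Finset.prod_eq_one fun g _ => ?_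
      by_cases hg : g = 0
      · subst hg; simp
      · simp [hg]
    change R.XX _ _ - R.YY _ _ ≠ 0
    rw [h1, h2]
    norm_num

theorem dense_cnd (R : Region1) (S : L → Bool) :
    Dense (R.Gp S ∩ {b | b ∈ univ ∧ ∀ c, cnd R c b ≠ 0}) := by
  have h := H375.entire_std (𝕜 := ℂ) (P := cnd R) isOpen_univ (fun c p _ => by
    rcases c with j | x
    · exact R.an_pos j p
    · exact (R.an_XX _ p).sub (R.an_YY _ p)) exists_cnd
  exact (R.dense_Gp S).inter_of_isOpen_right (fun p => h.2 (mem_univ p)) h.1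

theorem gn_of_cnd (hS : ∀ j, S j = true → R.nk j = false) {p : R.Sp} {g : ℂ} {v : L → ℂ}
    (hp : p ∈ R.Gp S ∩ {b | b ∈ univ ∧ ∀ c, cnd R c b ≠ 0}) (ho : R.ok S p g v) :
    Gn S (R.psi p) (R.sht p g v) := by
  have h1 : ∀ c, R.Cnd S c p ≠ 0 := fun c => mem_iInter.1 hp.1 c
  have h0 : ∀ j, R.pos p j ≠ 0 := fun j => hp.2.2 (Sum.inl j)
  have he : R.eps p ≠ 0 := Finset.prod_ne_zero_iff.2 fun g _ => h1 (Sum.inl (Sum.inl g))
  have hc : ∀ i j, i ≠ j → R.nk i = false → xx (S i) (R.pos p i) ≠ xx (S j) (R.pos p j) := by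
    intro i j hij hi
    have h2 := h1 (Sum.inr (Sum.inr (i, j)))
    simp only [Region1.Cnd, if_pos (show i ≠ j ∧ R.nk i = false from ⟨hij, hi⟩)] at h2
    refine xx_ne (fun e => ?_) (fun e => ?_) (h0 i) (h0 j)
    · rw [if_pos e] at h2
      exact sub_ne_zero.1 h2
    · rw [if_neg e] at h2
      exact sub_ne_zero.1 h2
  have hn : ∀ i j, R.nk i = true → R.nk j = true → R.rk i < R.rk j → R.pos p i ≠ R.pos p j := by
    intro i j hi hj hij e
    have h2 := h1 (Sum.inr (Sum.inl (i, j)))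
    simp only [Region1.Cnd, if_pos (show R.nk i = true ∧ R.nk j = true ∧ R.rk i < R.rk j from
      ⟨hi, hj, hij⟩)] at h2
    have h3 : R.XX p (R.rk i) - R.YY p (R.rk j) ≠ 0 := hp.2.2 (Sum.inr (i, j))
    rw [H883.pos_neck hi, H883.pos_neck hj] at e
    have h4 := H883.XX_mul_YY p (R.rk i)
    have h5 := H883.XX_mul_YY p (R.rk j)
    refine mul_ne_zero h2 h3 ?_
    linear_combination (2 * R.XX p (R.rk i)) * e - h4 + h5
  refine ⟨simple_cf ho he, H883.ok_onC hS ho (R.gen_of_Gp hS hp.1 ho).1, h0, fun i j hij => ?_⟩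
  change xx (S i) (R.pos p i) ≠ xx (S j) (R.pos p j)
  cases hi : R.nk i
  · exact hc i j hij hi
  · cases hj : R.nk j
    · exact (hc j i hij.symm hj).symm
    · rw [H883.S_neck hS hi, H883.S_neck hS hj]
      rcases lt_trichotomy (R.rk i) (R.rk j) with h | h | h
      · exact hn i j hi hj h
      · exact absurd (R.rk_inj i j hi hj h) hij
      · exact (hn j i hj hi h).symm

/-! ### The chart -/

/-- The data of the chart at an admissible point. -/
def ud (R : Region1) (S : L → Bool) (p0 : R.Sp) (g0 : ℂ) (v0 : L → ℂ) : UD :=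
  ⟨r3 R, S, th R p0, fun j => if R.nk j = true then g0 * nf R p0 j else v0 j⟩

variable {p0 : R.Sp} {g0 : ℂ} {v0 : L → ℂ}

theorem g_neck {j : L} (hj : R.nk j = true) : (ud R S p0 g0 v0).g j = g0 * nf R p0 j := if_pos hj

theorem g_core {j : L} (hj : R.nk j = false) : (ud R S p0 g0 v0).g j = v0 j :=
  if_neg (by simp [hj])

theorem nf_sq {p : R.Sp} {g : ℂ} (h1 : ∀ l, R.ctr p ≠ R.oth p l)
    (hg : g ^ 2 = ∏ l : Fin 4, (R.ctr p - R.oth p l)) (j : L) :
    (g * nf R p j) ^ 2 = ∏ l : Fin 4, (R.pos p j - R.oth p l) := by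
  unfold nf
  rw [mul_pow, hg, ← Finset.prod_pow]
  simp only [H883.csq_sq]
  rw [← Finset.prod_mul_distrib]
  refine Finset.prod_congr rfl fun l _ => ?_
  exact mul_div_cancel₀ _ (sub_ne_zero.2 (h1 l))

theorem gnf_ne (h : R.ok S p0 g0 v0) {j : L} (hj : R.nk j = true) : g0 * nf R p0 j ≠ 0 :=
  mul_ne_zero (H883.sheet_ne (H883.ok_sheet h) (H883.ok_ctr h)) (H883.nf_ne hj (H883.ok_neck h hj))

theorem q_ne (h : R.ok S p0 g0 v0) {j : L} (hj : R.nk j = true) :
    ∏ l : Fin 4, (R.pos p0 j - R.oth p0 l) ≠ 0 := by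
  rw [← nf_sq (H883.ok_ctr h) (H883.ok_sheet h).1 j]
  exact pow_ne_zero 2 (gnf_ne h hj)

theorem sg_th_core (p : R.Sp) {j : L} (hj : R.nk j = false) :
    (ud R S p0 g0 v0).sg (th R p) j = vb R S p0 v0 p j := by
  refine (UD.sg_core (D := ud R S p0 g0 v0) (th R p) (pl_core hj)).trans ?_
  rw [g_core hj]
  change v0 j * csq (pol (S j) (aU (r3 R) (th R p)) (posU (r3 R) (th R p) j) /
    pol (S j) (aU (r3 R) (th R p0)) (posU (r3 R) (th R p0) j)) = _
  rw [aU_th, aU_th, posU_th, posU_th]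
  rfl

theorem sg_th_neck (p : R.Sp) {j : L} (hj : R.nk j = true) :
    (ud R S p0 g0 v0).sg (th R p) j = g0 * nf R p0 j *
      csq ((∏ l : Fin 4, (R.pos p j - R.oth p l)) / ∏ l : Fin 4, (R.pos p0 j - R.oth p0 l)) *
      (R.XX p (R.rk j) - R.YY p (R.rk j)) / 2 := by
  refine (UD.sg_neck (D := ud R S p0 g0 v0) (th R p) (pl_neck hj)).trans ?_
  rw [← g_neck (S := S) (v0 := v0) hj]
  change (ud R S p0 g0 v0).g j * csq (QU (r3 R) (th R p) 0 (posU (r3 R) (th R p) j) /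
    QU (r3 R) (th R p0) 0 (posU (r3 R) (th R p0) j)) *
    ((r3 R).XX (th R p).1 0 (R.rk j) - (r3 R).YY (th R p).1 0 (R.rk j)) / 2 = _
  rw [QU_th, QU_th, posU_th, posU_th, XX_th, YY_th]

theorem ev_sg (h : R.ok S p0 g0 v0) :
    ∀ᶠ p in 𝓝 p0, ∀ j, (ud R S p0 g0 v0).sg (th R p) j = sg1 R S p0 g0 v0 p j := by
  refine eventually_all.2 fun j => ?_
  cases hj : R.nk j
  · exact Eventually.of_forall fun p => by rw [sg_th_core p hj, sg1, H883.sht_core hj]
  · have hq : ContinuousAt (fun p : R.Sp => ∏ l : Fin 4, (R.pos p j - R.oth p l)) p0 :=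
      (Finset.analyticAt_fun_prod _ fun l _ =>
        (R.an_pos j p0).sub (R.an_oth l p0)).continuousAt
    have h1 : ∀ᶠ p in 𝓝 p0, g0 * nf R p0 j * csq ((∏ l : Fin 4, (R.pos p j - R.oth p l)) /
        ∏ l : Fin 4, (R.pos p0 j - R.oth p0 l)) = gb R p0 g0 p * nf R p j := by
      refine H888.eq_of_sq (continuousAt_const.mul (ContinuousAt.comp_of_eq
        H894.continuousAt_csq_one (hq.div_const _) (div_self (q_ne h hj))))
        ((H883.an_gb (H883.ok_ctr h) g0).continuousAt.mul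
          (H883.an_nf hj (H883.ok_neck h hj)).continuousAt) ?_ ?_ ?_
      · rw [div_self (q_ne h hj), H894.csq_one, mul_one, H883.gb_self (H883.ok_ctr h)]
      · rw [div_self (q_ne h hj), H894.csq_one, mul_one]
        exact gnf_ne h hj
      · filter_upwards [H883.ok_branch h] with p hp
        rw [nf_sq (H883.ok_ctr hp) (H883.ok_sheet hp).1 j, mul_pow, H894.csq_sq,
          nf_sq (H883.ok_ctr h) (H883.ok_sheet h).1 j, mul_div_cancel₀ _ (q_ne h hj)]
    filter_upwards [h1] with p hp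
    rw [sg_th_neck p hj, hp, sg1, H883.sht_neck hj]
    rfl

theorem sg_c (h : R.ok S p0 g0 v0) (j : L) :
    (ud R S p0 g0 v0).sg (th R p0) j = R.sht p0 g0 v0 j := by
  rw [(ev_sg h).self_of_nhds j, sg1, H883.gb_self (H883.ok_ctr h)]
  exact H883.sht_congr (fun j hj =>
    H883.vb_self ((H883.ok_sheet h).2 j hj) (H883.ok_core h hj).1) j

theorem at_iff {j : L} {k : Fin 3} : (ud R S p0 g0 v0).At j k ↔
    R.nk j = true ∧ k = 0 ∧ R.XX p0 (R.rk j) = 0 ∧ R.YY p0 (R.rk j) = 0 := by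
  constructor
  · rintro ⟨h1, h2, h3⟩
    obtain ⟨h4, rfl⟩ := pl_inl h1
    exact ⟨h4, rfl, (XX_th p0 _).symm.trans h2, (YY_th p0 _).symm.trans h3⟩
  · rintro ⟨h1, rfl, h2, h3⟩
    exact ⟨pl_neck h1, (XX_th p0 _).trans h2, (YY_th p0 _).trans h3⟩

theorem ud_ok (hS : ∀ j, S j = true → R.nk j = false) (h : R.ok S p0 g0 v0) :
    (ud R S p0 g0 v0).OK where
  far j hj := by
    change ((r3 R).pl j).isRight = true
    rw [pl_core (hS j hj)]
    rfl
  cop := by
    change Cop (cs R p0, (r3 R).eps (th R p0).1)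
    rw [eps_th]
    exact cop_th h
  g0 j := by
    cases hj : R.nk j
    · rw [g_core hj]; exact (H883.ok_core h hj).1
    · rw [g_neck hj]; exact gnf_ne h hj
  gn j k hj := by
    obtain ⟨h1, rfl⟩ := pl_inl hj
    rw [g_neck h1, nf_sq (H883.ok_ctr h) (H883.ok_sheet h).1 j]
    change _ = QU (r3 R) (th R p0) 0 (posU (r3 R) (th R p0) j)
    rw [QU_th, posU_th]
  gc j s hj := by
    have h1 := pl_inr hj
    rw [g_core h1, (H883.ok_sheet h).2 j h1]
    change _ = pol (S j) (aU (r3 R) (th R p0)) (posU (r3 R) (th R p0) j)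
    rw [aU_th, posU_th]
  gs i j k hi hj := by
    obtain ⟨h1, -, h2, h3⟩ := at_iff.1 hi
    obtain ⟨h4, -, h5, h6⟩ := at_iff.1 hj
    rw [g_neck h1, g_neck h4, nf, nf, H883.pos_neck h1, H883.pos_neck h4, h2, h3, h5, h6]
  sep i j hij ht hs := by
    change Same (S i) (posU (r3 R) (th R p0) i) ((ud R S p0 g0 v0).sg (th R p0) i) (S j)
      (posU (r3 R) (th R p0) j) ((ud R S p0 g0 v0).sg (th R p0) j) at hs
    rw [posU_th, posU_th, sg_c h, sg_c h] at hs
    by_cases hn : R.nk i = true ∧ R.nk j = true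
    swap
    · exact absurd hs (h.2.2.2.2.2.1 i j hij ht hn)
    obtain ⟨hi, hj⟩ := hn
    rw [H883.S_neck hS hi, H883.S_neck hS hj, Same, if_pos rfl] at hs
    obtain ⟨e1, e2⟩ := (H883.neck_same hi hj h).1 hs
    rcases lt_trichotomy (R.rk i) (R.rk j) with hl | hl | hl
    · obtain ⟨e3, e4⟩ := ((H883.neck_same_iff hi hj hl h).1 hs).resolve_left
        (h.2.2.2.2.2.2 i j hi hj ht hl)
      exact ⟨0, at_iff.2 ⟨hi, rfl, e3, e2.trans e4⟩, at_iff.2 ⟨hj, rfl, e1.symm.trans e3, e4⟩⟩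
    · exact absurd (R.rk_inj i j hi hj hl) hij
    · obtain ⟨e3, e4⟩ := ((H883.neck_same_iff hj hi hl h).1 ⟨hs.1.symm, hs.2.symm⟩).resolve_left
        (h.2.2.2.2.2.2 j i hj hi ht.symm hl)
      exact ⟨0, at_iff.2 ⟨hi, rfl, e1.trans e3, e4⟩, at_iff.2 ⟨hj, rfl, e3, e2.symm.trans e4⟩⟩
  mu1 i j k hi hj ht hl := by
    change H724.mu (r3 R) (th R p0).1 i j ≠ 1
    rw [mu_th p0 (at_iff.1 hi).1]
    exact h.2.2.2.2.2.2 i j (at_iff.1 hi).1 (at_iff.1 hj).1 ht hl

/-- **P1**. -/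
theorem p1 (uch : UCH) : P1 := by
  intro R S hS p0 g0 v0 h
  obtain ⟨O3, hc, hX, hW⟩ := uch (ud R S p0 g0 v0) (ud_ok hS h)
  have h1 : ∀ᶠ p in 𝓝 p0, th R p ∈ O3 := (an_th p0).continuousAt.eventually (hX.opn.mem_nhds hc)
  obtain ⟨O, hO1, hO, hp0⟩ := eventually_nhds_iff.1 (h1.and ((ev_sg h).and (H883.ok_branch h)))
  have hσ : ∀ p ∈ O, (ud R S p0 g0 v0).sg (th R p) = sg1 R S p0 g0 v0 p := fun p hp =>
    funext (hO1 p hp).2.1
  have hψ : ∀ p, psiU (ud R S p0 g0 v0).R (th R p) = R.psi p := psiU_th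
  refine ⟨O, fun p => (ud R S p0 g0 v0).eU (th R p), hp0, ⟨hO, ?_, fun p hp => ?_,
    fun p hp j => ?_, fun p hp hd => ?_, ?_⟩, fun p hp => hW (hO1 p hp).1⟩
  · refine hX.sm.comp (fun p _ => ?_) fun p hp => (hO1 p hp).1
    exact (((an_th p).contDiffAt (n := ∞)).restrict_scalars ℝ).contDiffWithinAt
  · rw [← hψ]
    exact hX.fst _ (hO1 p hp).1
  · rw [← hψ, ← hσ p hp]
    exact hX.pos _ (hO1 p hp).1 j
  · rw [← hψ, ← hσ p hp] at hd ⊢
    exact hX.eq _ (hO1 p hp).1 hd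
  · exact dense_congr hO (fun p _ => dense_cnd R S p) fun p hp hg =>
      gn_of_cnd hS hg (hO1 p hp).2.2

end Vale.Agent.P273SG

end
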