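import Vale.Agent.P273SG.Gen

/-!
# P273S, block W: the row PG (the interior)
-/

noncomputable section

namespace Vale.Agent.P273SG

open Set Filter Topology Vale.Agent.P273 H95 Vale.Agent.P273SW
open Vale.Agent.P273.H681 (C6)
open Vale.Agent.P273.H680 (k20)
open Vale.Agent.P273.H888 (Real Dist Far ept)
open scoped ContDiff ComplexConjugate

variable {S : L → Bool} {e : E} {v : L → ℂ}

theorem br_self (hv : OnC S e.1 e.2 v) : br S e v e = v := by
  funext j
  rw [br, div_self (H894.pol_ne hv j), H894.csq_one, mul_one]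

theorem br_sq (hv : OnC S e.1 e.2 v) (p : E) (j : L) :
    br S e v p j ^ 2 = pol (S j) p.1 (p.2 j) := by
  rw [br, mul_pow, H894.csq_sq, (hv j).1, mul_div_cancel₀ _ (H894.pol_ne hv j)]

theorem cont_br (hv : OnC S e.1 e.2 v) (j : L) : ContinuousAt (fun p => br S e v p j) e := by
  have h1 : Continuous fun p : E => pol (S j) p.1 (p.2 j) :=
    (H894.continuous_pol (S j)).comp (f := fun p : E => (p.1, p.2 j)) (by fun_prop)
  refine continuousAt_const.mul (ContinuousAt.comp_of_eq H894.continuousAt_csq_one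
    (h1.continuousAt.div_const _) (div_self (H894.pol_ne hv j)))

/-- The embedding itself over an open set of interior data. -/
theorem isExt_int (egd : EGD) {σ : E → L → ℂ} {O : Set E} (hO : IsOpen O)
    (hσ : ∀ p ∈ O, ContDiffAt ℝ ∞ σ p) (hC : ∀ p ∈ O, OnC S p.1 p.2 (σ p)) :
    IsExt S id σ O fun p => eG S p (σ p) where
  opn := hO
  sm p hp := by
    obtain ⟨h1, -, h3⟩ := egd E S id σ p contDiffAt_id (hσ p hp)
    refine ContDiffAt.contDiffWithinAt (contDiffAt_fst.prodMk ((contDiffAt_pi.2 h1).prodMk ?_))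
    exact contDiffAt_pi.2 fun i => contDiffAt_pi.2 fun j => h3 i j (Or.inl (hC p hp i).2)
  fst _ _ := rfl
  pos _ _ _ := rfl
  eq _ _ _ := rfl
  dense := dense_congr hO (fun p _ => dense_gen S p) fun p hp h => ⟨h.1, hC p hp, h.2.1, h.2.2⟩

/-- The data read off a point of the ambient space in the charts `S`. -/
def cE (S : L → Bool) (u : Amb) : E := (u.1, fun j => zc (S j) (u.2.1 j))
/-- The sheets read off a point of the ambient space in the charts `S`. -/
def cV (S : L → Bool) (u : Amb) (j : L) : ℂ := vc (S j) (u.2.1 j)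

theorem cE_eG (S : L → Bool) (e : E) (v : L → ℂ) : cE S (eG S e v) = e :=
  Prod.ext rfl (funext fun j => zc_pt4 (S j) (e.2 j) (v j))

theorem cV_eG (S : L → Bool) (e : E) (v : L → ℂ) : cV S (eG S e v) = v :=
  funext fun j => vc_pt4 (S j) (e.2 j) (v j)

theorem cont_cE {u : Amb} (h : ∀ j, dn (S j) (u.2.1 j) ≠ 0) : ContinuousAt (cE S) u := by
  refine continuousAt_fst.prodMk (continuousAt_pi.2 fun j => ?_)
  exact ContinuousAt.comp (f := fun u : Amb => u.2.1 j) (continuousAt_zc (h j)) (by fun_prop)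

theorem cont_cV {u : Amb} (h : ∀ j, dn (S j) (u.2.1 j) ≠ 0) (j : L) :
    ContinuousAt (fun u => cV S u j) u :=
  ContinuousAt.comp (f := fun u : Amb => u.2.1 j) (continuousAt_vc (h j)) (by fun_prop)

/-- A generic point of the ambient space, in given charts. -/
theorem std_chart (egs : EGS) (S : L → Bool) {u : Amb} (hu : u ∈ StdW) :
    ∃ e v, OnC S (e : E).1 e.2 v ∧ u = eG S e v := by
  obtain ⟨S', e, v, hg, rfl⟩ := hu
  have h0 : ∀ j, S' j ≠ S j → e.2 j ≠ 0 := fun j _ => hg.2.2.1 j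
  exact ⟨H95.flip S' S e, flipv S' S e.2 v, H894.onC_flip h0 hg.2.1,
    egs S' S e _ v _ rfl fun j => H888.flip_same (h0 j)⟩

theorem isOpen_nb {O : Set E} (hO : IsOpen O) (v : L → ℂ) (r : ℝ) :
    IsOpen {u : Amb | (∀ j, dn (S j) (u.2.1 j) ≠ 0) ∧ cE S u ∈ O ∧
      ∀ j, ‖cV S u j - v j‖ < r} := by
  refine isOpen_iff_mem_nhds.2 fun u hu => ?_
  obtain ⟨h1, h2, h3⟩ := hu
  have k1 : ∀ᶠ w : Amb in 𝓝 u, ∀ j, dn (S j) (w.2.1 j) ≠ 0 := eventually_all.2 fun j =>
    (((continuous_dn (S j)).comp (f := fun w : Amb => w.2.1 j)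
      (by fun_prop)).continuousAt).eventually_ne (h1 j)
  have k2 : ∀ᶠ w : Amb in 𝓝 u, cE S w ∈ O := (cont_cE h1).eventually (hO.mem_nhds h2)
  have k3 : ∀ᶠ w : Amb in 𝓝 u, ∀ j, ‖cV S w j - v j‖ < r := eventually_all.2 fun j =>
    (((cont_cV h1 j).sub continuousAt_const).norm).eventually_lt continuousAt_const (h3 j)
  exact k1.and (k2.and k3)

/-- **PG**. -/
theorem pg (egs : EGS) (egd : EGD) : PG := by
  intro S e v hK hv hs
  obtain ⟨C, σ, R, hp, hσ⟩ := H888.a1 S e v hK hv hs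
  obtain ⟨W, r, hW, heW, hWO, hr, h4⟩ := H888.exists_near (O := k20.symm ⁻¹' C.B) (S := S)
    (fun j => (hv j).2) (fun j => (R.anσ hp j).continuousAt) hσ (R.open'.mem_nhds hp)
    (fun p hp j => R.sq' hp j)
  have hev : ∀ᶠ p in 𝓝 e, p ∈ W ∧ ∀ j, ‖br S e v p j - v j‖ < r := by
    refine Filter.Eventually.and (hW.mem_nhds heW) (eventually_all.2 fun j => ?_)
    refine (((cont_br hv j).sub continuousAt_const).norm).eventually_lt continuousAt_const ?_
    change ‖br S e v e j - v j‖ < r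
    rw [br_self hv, sub_self, norm_zero]
    exact hr
  obtain ⟨O, hO1, hO, heO⟩ := eventually_nhds_iff.1 hev
  have hbr : ∀ p ∈ O, br S e v p = σ p ∧ ∀ j, br S e v p j ≠ 0 := fun p hp =>
    h4 p (hO1 p hp).1 _ (br_sq hv p) (hO1 p hp).2
  have hB : ∀ p ∈ O, k20.symm p ∈ C.B := fun p hp => hWO (hO1 p hp).1
  have hX : IsExt S id σ O fun p => eG S p (σ p) := by
    refine isExt_int egd hO (fun p hp => contDiffAt_pi.2 fun j => ?_) fun p hp j => ?_
    · exact ((R.anσ (hB p hp) j).contDiffAt (n := ∞)).restrict_scalars ℝ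
    · rw [← (hbr p hp).1]
      exact ⟨br_sq hv p j, (hbr p hp).2 j⟩
  have hY : IsExt S id (br S e v) O fun p => eG S p (br S e v p) :=
    isExt_congr hX hO Subset.rfl (fun _ _ => rfl) (fun p hp => (hbr p hp).1) fun p hp => by
      rw [(hbr p hp).1]
  refine ⟨O, heO, hY, fun p hp => ⟨isExt_closure hY hp, ?_⟩⟩
  have hk : ContDiff ℝ ∞ k20.toHomeomorph :=
    (k20.contDiff (n := ∞)).restrict_scalars ℝ
  refine ⟨S, fun b => k20 b, fun b => σ (k20 b), C, k20 ⁻¹' O,
    fun b => eG S (k20 b) (σ (k20 b)), _, fun u => k20.symm (cE S u),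
    ⟨R.stable, R.ctr, R.anz, R.anv, R.sq⟩, fun b hb => ?_, isExt_homeo hX k20.toHomeomorph hk,
    isOpen_nb (S := S) hO v r, ⟨fun j => dn_pt4 _ _ _, ?_, ?_⟩, fun u hu => ?_, fun u hu => ?_,
    fun b _ _ => ?_, fun u hu => ?_⟩
  · have := hB _ hb
    rwa [k20.symm_apply_apply] at this
  · rw [cE_eG]; exact hp
  · rw [cV_eG]; exact (hO1 p hp).2
  · exact (k20.symm.continuous.continuousAt.comp (cont_cE hu.1)).continuousWithinAt
  · change k20 (k20.symm (cE S u)) ∈ O
    rw [k20.apply_symm_apply]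
    exact hu.2.1
  · change k20.symm (cE S (eG S (k20 b) (σ (k20 b)))) = b
    rw [cE_eG, k20.symm_apply_apply]
  · obtain ⟨e', v', hC, rfl⟩ := std_chart egs S hu.2
    obtain ⟨-, h2, h3⟩ := hu.1
    rw [cE_eG] at h2
    rw [cV_eG] at h3
    change eG S (k20 (k20.symm (cE S (eG S e' v')))) (σ (k20 (k20.symm (cE S (eG S e' v'))))) = _
    rw [cE_eG, k20.apply_symm_apply,
      ← (h4 e' (hO1 e' h2).1 v' (fun j => (hC j).1) h3).1]

end Vale.Agent.P273SG

end
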