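import Vale.Agent.P273SW.UAn

/-!
# P273S, block W: a region with one neck as a chart with three necks (pairing of the other roots)
-/

noncomputable section

namespace Vale.Agent.P273SG

open Set Filter Topology Vale.Agent.P273 H95 Vale.Agent.P273SW
open Vale.Agent.P273.H681 (C6)

theorem pl_iff {b : Bool} {k : Fin 3} :
    (if b = true then Sum.inl 0 else Sum.inr false : Fin 3 ⊕ Bool) = Sum.inl k ↔
      b = true ∧ k = 0 := by
  cases b <;> simp [eq_comm]

variable (R : Region1)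

/-- The region with three necks: the marks of the neck are in the neck `0`. -/
def r3 : Region where
  pl j := if R.nk j = true then Sum.inl 0 else Sum.inr false
  rk := R.rk
  rk_core x s h := R.rk_core x (by
    cases hx : R.nk x
    · rfl
    · simp [hx] at h)
  rk_inj x y _ hx hy h := R.rk_inj x y (pl_iff.1 hx).1 (pl_iff.1 hy).1 h
  rk_lt x k hx := by
    have h := R.rk_lt x (pl_iff.1 hx).1
    have hk := (pl_iff.1 hx).2
    subst hk
    simpa only [pl_iff, and_true] using h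

variable {R}

theorem pl_neck {j : L} (hj : R.nk j = true) : (r3 R).pl j = Sum.inl 0 := if_pos hj

theorem pl_core {j : L} (hj : R.nk j = false) : (r3 R).pl j = Sum.inr false :=
  if_neg (by simp [hj])

theorem pl_inl {j : L} {k : Fin 3} (h : (r3 R).pl j = Sum.inl k) : R.nk j = true ∧ k = 0 :=
  pl_iff.1 h

theorem pl_inr {j : L} {s : Bool} (h : (r3 R).pl j = Sum.inr s) : R.nk j = false := by
  cases hj : R.nk j
  · rfl
  · rw [pl_neck hj] at h
    cases h

theorem n_zero : (r3 R).n 0 = R.n := by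
  unfold Region.n Region1.n
  refine congrArg Finset.card (Finset.filter_congr fun j _ => ?_)
  exact ⟨fun h => (pl_inl h).1, pl_neck⟩

theorem n_ne {k : Fin 3} (hk : k ≠ 0) : (r3 R).n k = 0 := by
  unfold Region.n
  rw [Finset.card_eq_zero, Finset.filter_eq_empty_iff]
  exact fun j _ h => hk (pl_inl h).2

variable (R)

/-- The gaps, indexed by numbers. -/
def gapN (p : R.Sp) (i : ℕ) : ℂ := if h : i < R.n + 1 then p.1 ⟨i, h⟩ else 1
/-- The centres. -/
def cs (p : R.Sp) : Fin 3 → ℂ :=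
  ![R.ctr p, (R.oth p 0 + R.oth p 1) / 2, (R.oth p 2 + R.oth p 3) / 2]
/-- The sizes of the necks. -/
def es (p : R.Sp) : Fin 3 → ℂ :=
  ![R.eps p, ((R.oth p 0 - R.oth p 1) / 2) ^ 2, ((R.oth p 2 - R.oth p 3) / 2) ^ 2]
/-- The map to the chart with three necks. -/
def th (p : R.Sp) : MU (r3 R) :=
  ((fun g => if g.1 = 0 then gapN R p g.2 else es R p g.1, fun j => R.pos p j.1), cs R p)

variable {R}

theorem prod_gap (p : R.Sp) (F : ℕ → ℂ → ℂ) :
    ∏ g : Fin ((r3 R).n 0 + 1), F g ((th R p).1.1 ⟨0, g⟩) =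
      ∏ g : Fin (R.n + 1), F g (p.1 g) := by
  have h : ∀ m, m = R.n → ∏ g : Fin (m + 1), F g (gapN R p g) =
      ∏ g : Fin (R.n + 1), F g (p.1 g) := by
    rintro _ rfl
    refine Finset.prod_congr rfl fun g _ => ?_
    rw [gapN, dif_pos g.2]
  exact h _ n_zero

theorem eps_th (p : R.Sp) : (r3 R).eps (th R p).1 = es R p := by
  funext k
  by_cases hk : k = 0
  · subst hk
    exact prod_gap p fun _ x => x
  · have h : ∀ g : Fin ((r3 R).n k + 1), (th R p).1.1 ⟨k, g⟩ = es R p k := fun g => if_neg hk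
    simp only [Region.eps, h, Finset.prod_const, Finset.card_univ, Fintype.card_fin, n_ne hk,
      zero_add, pow_one]

theorem XX_th (p : R.Sp) (i : ℕ) : (r3 R).XX (th R p).1 0 i = R.XX p i :=
  prod_gap p fun g x => if g ≤ i then x else 1

theorem YY_th (p : R.Sp) (i : ℕ) : (r3 R).YY (th R p).1 0 i = R.YY p i :=
  prod_gap p fun g x => if i < g then x else 1

theorem mu_th (p : R.Sp) {i : L} (hi : R.nk i = true) (j : L) :
    H724.mu (r3 R) (th R p).1 i j = H883.mu R p (R.rk i) (R.rk j) := by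
  rw [H724.mu_eq _ (pl_neck hi)]
  exact prod_gap p fun g x => if R.rk i < g ∧ g ≤ R.rk j then x else 1

theorem posU_th (p : R.Sp) (j : L) : posU (r3 R) (th R p) j = R.pos p j := by
  cases hj : R.nk j
  · rw [posU_core _ (pl_core hj), H724.pos_core _ (pl_core hj)]
    rfl
  · rw [posU_neck _ (pl_neck hj), XX_th, YY_th, H883.pos_neck hj]
    rfl

theorem es1 (p : R.Sp) (x : ℂ) :
    (x - cs R p 1) ^ 2 - es R p 1 = (x - R.oth p 0) * (x - R.oth p 1) := by
  change (x - (R.oth p 0 + R.oth p 1) / 2) ^ 2 - ((R.oth p 0 - R.oth p 1) / 2) ^ 2 = _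
  ring

theorem es2 (p : R.Sp) (x : ℂ) :
    (x - cs R p 2) ^ 2 - es R p 2 = (x - R.oth p 2) * (x - R.oth p 3) := by
  change (x - (R.oth p 2 + R.oth p 3) / 2) ^ 2 - ((R.oth p 2 - R.oth p 3) / 2) ^ 2 = _
  ring

theorem aU_th (p : R.Sp) : aU (r3 R) (th R p) = R.cf p := by
  rw [aU, eps_th]
  funext i
  refine congrArg (fun P : Polynomial ℂ => P.coeff i) (Polynomial.funext fun x => ?_)
  simp only [Polynomial.eval_prod, Polynomial.eval_mul, Polynomial.eval_sub, Polynomial.eval_pow,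
    Polynomial.eval_X, Polynomial.eval_C, Fin.prod_univ_three, Fin.prod_univ_four]
  change ((x - R.ctr p) ^ 2 - R.eps p) * ((x - cs R p 1) ^ 2 - es R p 1) *
    ((x - cs R p 2) ^ 2 - es R p 2) = _
  rw [es1, es2]
  ring

theorem psiU_th (p : R.Sp) : psiU (r3 R) (th R p) = R.psi p :=
  Prod.ext (aU_th p) (funext (posU_th p))

theorem QU_th (p : R.Sp) (x : ℂ) : QU (r3 R) (th R p) 0 x = ∏ l : Fin 4, (x - R.oth p l) := by
  rw [QU, eps_th, Fin.prod_univ_four]
  change ((x - cs R p 1) ^ 2 - es R p 1) * ((x - cs R p 2) ^ 2 - es R p 2) = _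
  rw [es1, es2]
  ring

theorem an_cs (p : R.Sp) (k : Fin 3) : AnalyticAt ℂ (fun q => cs R q k) p := by
  fin_cases k
  · exact R.an_ctr p
  · exact ((R.an_oth 0 p).add (R.an_oth 1 p)).div analyticAt_const two_ne_zero
  · exact ((R.an_oth 2 p).add (R.an_oth 3 p)).div analyticAt_const two_ne_zero

theorem an_es (p : R.Sp) (k : Fin 3) : AnalyticAt ℂ (fun q => es R q k) p := by
  fin_cases k
  · exact R.an_eps p
  · exact (((R.an_oth 0 p).sub (R.an_oth 1 p)).div analyticAt_const two_ne_zero).pow 2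
  · exact (((R.an_oth 2 p).sub (R.an_oth 3 p)).div analyticAt_const two_ne_zero).pow 2

theorem an_th (p : R.Sp) : AnalyticAt ℂ (th R) p := by
  refine AnalyticAt.prod (AnalyticAt.prod (analyticAt_pi_iff.2 fun g => ?_)
    (analyticAt_pi_iff.2 fun j => R.an_pos j.1 p)) (analyticAt_pi_iff.2 (an_cs p))
  by_cases hg : g.1 = 0
  · simp only [if_pos hg, gapN]
    split_ifs
    · exact R.an_gap _ p
    · exact analyticAt_const
  · simp only [if_neg hg]
    exact an_es p _

variable {S : L → Bool} {p : R.Sp} {g : ℂ} {v : L → ℂ}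

theorem oth_ne (h : R.ok S p g v) (l : Fin 4) : (R.oth p l - R.ctr p) ^ 2 - R.eps p ≠ 0 := by
  intro h0
  have h3 := H883.ok_eps h l
  rw [← sub_eq_zero.1 h0, norm_pow, norm_sub_rev] at h3
  have h5 : 0 ≤ ‖R.ctr p - R.oth p l‖ ^ 2 := by positivity
  linarith

theorem cop_th (h : R.ok S p g v) : Cop (cs R p, es R p) := by
  have hi := H883.ok_inj h
  have k1 : ∀ x, (x - cs R p 1) ^ 2 = es R p 1 → x = R.oth p 0 ∨ x = R.oth p 1 := fun x hx => by
    have h1 := es1 p x
    rw [hx, sub_self] at h1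
    exact (mul_eq_zero.1 h1.symm).imp sub_eq_zero.1 sub_eq_zero.1
  have k2 : ∀ x, (x - cs R p 2) ^ 2 = es R p 2 → x = R.oth p 2 ∨ x = R.oth p 3 := fun x hx => by
    have h1 := es2 p x
    rw [hx, sub_self] at h1
    exact (mul_eq_zero.1 h1.symm).imp sub_eq_zero.1 sub_eq_zero.1
  have k0 : ∀ x l, (x - cs R p 0) ^ 2 = es R p 0 → x ≠ R.oth p l := fun x l hx e => by
    subst e
    exact oth_ne h l (sub_eq_zero.2 hx)
  have a01 : ∀ x, ¬ ((x - cs R p 0) ^ 2 = es R p 0 ∧ (x - cs R p 1) ^ 2 = es R p 1) :=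
    fun x hx => (k1 x hx.2).elim (k0 x _ hx.1) (k0 x _ hx.1)
  have a02 : ∀ x, ¬ ((x - cs R p 0) ^ 2 = es R p 0 ∧ (x - cs R p 2) ^ 2 = es R p 2) :=
    fun x hx => (k2 x hx.2).elim (k0 x _ hx.1) (k0 x _ hx.1)
  have a12 : ∀ x, ¬ ((x - cs R p 1) ^ 2 = es R p 1 ∧ (x - cs R p 2) ^ 2 = es R p 2) := by
    intro x hx
    rcases k1 x hx.1 with h1 | h1 <;> rcases k2 x hx.2 with h2 | h2 <;>
      exact absurd (hi _ _ (h1.symm.trans h2)) (by decide)
  intro k l hkl x hx
  fin_cases k <;> fin_cases l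
  · exact hkl rfl
  · exact a01 x hx
  · exact a02 x hx
  · exact a01 x hx.symm
  · exact hkl rfl
  · exact a12 x hx
  · exact a02 x hx.symm
  · exact a12 x hx.symm
  · exact hkl rfl

theorem simple_cf (h : R.ok S p g v) (h0 : R.eps p ≠ 0) (x : ℂ) (hx : sx (R.cf p) x = 0) :
    sx1 (R.cf p) x ≠ 0 := by
  have hi := H883.ok_inj h
  have e : R.cf p = Psi (cs R p, es R p) := by
    rw [← aU_th, aU, eps_th]
    rfl
  rw [e] at hx ⊢
  refine (cop_th h).simple (fun k => ?_) hx
  fin_cases k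
  · exact h0
  · exact pow_ne_zero 2 (div_ne_zero (sub_ne_zero.2 fun e => absurd (hi _ _ e) (by decide))
      two_ne_zero)
  · exact pow_ne_zero 2 (div_ne_zero (sub_ne_zero.2 fun e => absurd (hi _ _ e) (by decide))
      two_ne_zero)

end Vale.Agent.P273SG

end
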